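import Vale.Agent.P050.O.H625.Shape
import Mathlib.Combinatorics.SimpleGraph.Coloring.Constructions

set_option linter.all false

/-!
Dense targets, optimal order: the shortest cycle of a shape (`gk_ge`, `shape_gir`, `gk_le`).
-/

open MeasureTheory Finset

namespace Vale.Agent.P050.Opt

open Vale.Agent.P050 Vale.Agent.P050.Dense

namespace H625

section cyc

variable {V : Type*}

/-- a cycle given by positions -/
theorem cycle_pos {G : SimpleGraph V} {f : ℕ → V} {n : ℕ} (hn : 3 ≤ n)
    (inj : ∀ i < n, ∀ j < n, f i = f j → i = j)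
    (adj : ∀ i, i + 1 < n → G.Adj (f i) (f (i + 1))) (hcl : G.Adj (f (n - 1)) (f 0)) :
    ¬ G.IsAcyclic := by
  have key : ∀ m, m + 1 ≤ n → ∃ p : G.Walk (f 0) (f m), p.length = m ∧
      p.support = (List.range (m + 1)).map f ∧
      ∀ e ∈ p.edges, ∃ i < m, e = s(f i, f (i + 1)) := by
    intro m
    induction m with
    | zero =>
      intro _
      exact ⟨SimpleGraph.Walk.nil, rfl, rfl, by simp⟩
    | succ m ih =>
      intro hm
      obtain ⟨p, h1, h2, h3⟩ := ih (by omega)
      refine ⟨p.concat (adj m (by omega)), ?_, ?_, ?_⟩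
      · rw [SimpleGraph.Walk.length_concat, h1]
      · rw [SimpleGraph.Walk.support_concat, h2]
        conv_rhs => rw [List.range_succ]
        simp
      · intro e he
        rw [SimpleGraph.Walk.edges_concat, List.concat_eq_append, List.mem_append,
          List.mem_singleton] at he
        rcases he with he | he
        · obtain ⟨i, hi, rfl⟩ := h3 e he
          exact ⟨i, by omega, rfl⟩
        · exact ⟨m, by omega, he⟩
  obtain ⟨p, h1, h2, h3⟩ := key (n - 1) (by omega)
  have hpath : p.IsPath := by
    refine SimpleGraph.Walk.IsPath.mk' ?_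
    rw [h2]
    refine List.Nodup.map_on ?_ List.nodup_range
    intro i hi j hj h
    rw [List.mem_range] at hi hj
    exact inj i (by omega) j (by omega) h
  have hc : (SimpleGraph.Walk.cons hcl p).IsCycle := by
    rw [SimpleGraph.Walk.cons_isCycle_iff]
    refine ⟨hpath, fun hm => ?_⟩
    obtain ⟨i, hi, he⟩ := h3 _ hm
    rw [Sym2.eq_iff] at he
    rcases he with ⟨e1, e2⟩ | ⟨e1, e2⟩
    · have := inj _ (by omega) _ (by omega) e1
      omega
    · have := inj _ (by omega) _ (by omega) e1
      have := inj _ (by omega) _ (by omega) e2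
      omega
  exact fun ha => ha _ hc

/-- the girth of a bipartite graph with a cycle is even and at least four -/
theorem girth_even {G : SimpleGraph V} (hG : G.IsBipartite) (ha : ¬ G.IsAcyclic) :
    Even G.girth ∧ 4 ≤ G.girth := by
  obtain ⟨u, w, hw, hl⟩ := SimpleGraph.exists_girth_eq_length.mpr ha
  have h3 := SimpleGraph.three_le_girth ha
  have he : Even w.length := SimpleGraph.two_colorable_iff_forall_loop_even.mp hG _ w
  rw [← hl] at he
  refine ⟨he, ?_⟩
  obtain ⟨k, hk⟩ := he
  omega

end cyc

section shape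

variable {V : Type*} [Fintype V] [DecidableEq V]
variable {H : SimpleGraph V} {a : V} {L : List V} {B : Option (Option V)}
  {S : Finset V} {b : Bool}

/-- the graph of a shape is a subgraph of `H` -/
theorem FG_le (hs : Shape H a L B S b) : FG a L B S ≤ H := by
  intro x y h
  rw [FG, SimpleGraph.fromRel_adj] at h
  have key : ∀ x y, (Cons a L x y ∨ (x = a ∧ B = some (some y)) ∨ (x ∈ S ∧ y = hd a L)) →
      H.Adj x y := by
    rintro x y (h | ⟨h1, h2⟩ | ⟨h1, h2⟩)
    · exact hs.path x y h
    · rw [h1]; exact (hs.aB y h2).2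
    · rw [h2]; exact hs.aS x h1
  rcases h.2 with h | h
  · exact key x y h
  · exact (key y x h).symm

end shape

end H625

open H625

section shape

variable {V : Type*} [Fintype V] [DecidableEq V]
variable {H : SimpleGraph V}

/-- C1: the shortest cycle of a shape with a cycle is a cycle of `H`, of even length `≥ 4` -/
theorem gk_ge (hH : H.IsBipartite) {a : V} {L : List V}
    {B : Option (Option V)} {S : Finset V} {b : Bool} (hs : Shape H a L B S b)
    (hc : (∃ c, B = some (some c)) ∨ S.Nonempty) :
    2 ≤ gk a L B S ∧ (FG a L B S).girth = 2 * gk a L B S ∧ 2 * gk a L B S ≤ L.length + 1 := by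
  have hbip : (FG a L B S).IsBipartite := SimpleGraph.Colorable.mono_left (FG_le hs) hH
  have hinj : ∀ i ≤ L.length, ∀ j ≤ L.length, P a L i = P a L j → i = j := fun i hi j hj h =>
    P_inj hs.nd hi hj h
  have hadj : ∀ i < L.length, (FG a L B S).Adj (P a L i) (P a L (i + 1)) := fun i hi =>
    (adj_iff hs).mpr (mem_ED.mpr (Or.inl ⟨i, hi, rfl⟩))
  have key : ¬ (FG a L B S).IsAcyclic ∧ (FG a L B S).girth ≤ L.length + 1 := by
    rcases hc with ⟨c, hc⟩ | ⟨x, hx⟩
    · obtain ⟨i, h1, h2, rfl⟩ := B_pos hs hc
      have e1 : ∀ x < i + 1, ∀ y < i + 1, P a L x = P a L y → x = y := fun x hx y hy h =>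
        hinj x (by omega) y (by omega) h
      have e2 : ∀ x, x + 1 < i + 1 → (FG a L B S).Adj (P a L x) (P a L (x + 1)) := fun x hx =>
        hadj x (by omega)
      have e3 : (FG a L B S).Adj (P a L (i + 1 - 1)) (P a L 0) := by
        refine SimpleGraph.Adj.symm ((adj_iff hs).mpr (mem_ED.mpr (Or.inr (Or.inl ⟨_, hc, ?_⟩))))
        rw [P_zero, Nat.add_sub_cancel]
      have := girth_le_pos (by omega : 3 ≤ i + 1) e1 e2 e3
      exact ⟨cycle_pos (by omega : 3 ≤ i + 1) e1 e2 e3, by omega⟩
    · obtain ⟨i, h1, rfl⟩ := S_pos hs hx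
      have e1 : ∀ x < L.length + 1 - i, ∀ y < L.length + 1 - i,
          P a L (i + x) = P a L (i + y) → x = y := fun x hx y hy h => by
        have := hinj (i + x) (by omega) (i + y) (by omega) h
        omega
      have e2 : ∀ x, x + 1 < L.length + 1 - i →
          (FG a L B S).Adj (P a L (i + x)) (P a L (i + (x + 1))) := fun x hx =>
        hadj (i + x) (by omega)
      have e3 : (FG a L B S).Adj (P a L (i + (L.length + 1 - i - 1))) (P a L (i + 0)) := by
        have e : i + (L.length + 1 - i - 1) = L.length := by omega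
        rw [e, Nat.add_zero, P_last]
        refine SimpleGraph.Adj.symm ((adj_iff hs).mpr (mem_ED.mpr (Or.inr (Or.inr ⟨_, hx, rfl⟩))))
      have := girth_le_pos (f := fun j => P a L (i + j)) (by omega : 3 ≤ L.length + 1 - i) e1 e2 e3
      exact ⟨cycle_pos (f := fun j => P a L (i + j)) (by omega : 3 ≤ L.length + 1 - i) e1 e2 e3,
        by omega⟩
  obtain ⟨h1, h2⟩ := girth_even hbip key.1
  have h3 := key.2
  obtain ⟨m, hm⟩ := h1
  unfold gk
  omega

/-- the cycles of a shape -/
theorem shape_gir (hH : H.IsBipartite) {a : V} {L : List V}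
    {B : Option (Option V)} {S : Finset V} {b : Bool} (hs : Shape H a L B S b)
    (hc : (∃ c, B = some (some c)) ∨ S.Nonempty) :
    Gir L.length (Bp a L B) (Tp a L S) (gk a L B S) :=
  shape_gir_of hs (gk_ge hH hs hc).1

/-- C2: shapes without marks have at least `3 k - 1` vertices -/
theorem gk_le (hH : H.IsBipartite) {a : V} {L : List V}
    {B : Option (Option V)} {S : Finset V} (hs : Shape H a L B S false) (hB : B ≠ some none) :
    3 * gk a L B S ≤ L.length + 2 := by
  refine gk_le_of hs hB (shape_gir hH hs ?_)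
  have := hs.one
  simp only [Bool.false_eq_true, if_false, add_zero] at this
  exact Or.inr (card_pos.mp this)

end shape

end Vale.Agent.P050.Opt
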