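import Vale.Agent.P050.O.H625.Pos
import Vale.Agent.P050.O.H738.Pos

set_option linter.all false

/-!
Dense targets, optimal order: shapes by positions (`fp`, `Bp`, `Tp`), the cycles of a shape and the
size of shapes without marks.
-/

open MeasureTheory Finset

namespace Vale.Agent.P050.Opt

open Vale.Agent.P050 Vale.Agent.P050.Dense

namespace H625

section cyc

variable {V : Type*}

/-- the girth is at most the length of a cycle given by positions -/
theorem girth_le_pos {G : SimpleGraph V} {f : ℕ → V} {n : ℕ} (hn : 3 ≤ n)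
    (inj : ∀ i < n, ∀ j < n, f i = f j → i = j)
    (adj : ∀ i, i + 1 < n → G.Adj (f i) (f (i + 1))) (hcl : G.Adj (f (n - 1)) (f 0)) :
    G.girth ≤ n := by
  have key : ∀ m, m + 1 ≤ n → ∃ p : G.Walk (f 0) (f m), p.length = m ∧
      p.support = (List.range (m + 1)).map f ∧
      ∀ e ∈ p.edges, ∃ i < m, e = s(f i, f (i + 1)) := by
    intro m
    induction m with
    | zero =>
      intro _
      exact ⟨SimpleGraph.Walk.nil, rfl, rfl, by simp⟩
    | succ m ih =>
      intro hm
      obtain ⟨p, h1, h2, h3⟩ := ih (by omega)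
      refine ⟨p.concat (adj m (by omega)), ?_, ?_, ?_⟩
      · rw [SimpleGraph.Walk.length_concat, h1]
      · rw [SimpleGraph.Walk.support_concat, h2]
        conv_rhs => rw [List.range_succ]
        simp
      · intro e he
        rw [SimpleGraph.Walk.edges_concat, List.concat_eq_append, List.mem_append,
          List.mem_singleton] at he
        rcases he with he | he
        · obtain ⟨i, hi, rfl⟩ := h3 e he
          exact ⟨i, by omega, rfl⟩
        · exact ⟨m, by omega, he⟩
  obtain ⟨p, h1, h2, h3⟩ := key (n - 1) (by omega)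
  have hpath : p.IsPath := by
    refine SimpleGraph.Walk.IsPath.mk' ?_
    rw [h2]
    refine List.Nodup.map_on ?_ List.nodup_range
    intro i hi j hj h
    rw [List.mem_range] at hi hj
    exact inj i (by omega) j (by omega) h
  have hc : (SimpleGraph.Walk.cons hcl p).IsCycle := by
    rw [SimpleGraph.Walk.cons_isCycle_iff]
    refine ⟨hpath, fun hm => ?_⟩
    obtain ⟨i, hi, he⟩ := h3 _ hm
    rw [Sym2.eq_iff] at he
    rcases he with ⟨e1, e2⟩ | ⟨e1, e2⟩
    · have := inj _ (by omega) _ (by omega) e1
      omega
    · have := inj _ (by omega) _ (by omega) e1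
      have := inj _ (by omega) _ (by omega) e2
      omega
  have := SimpleGraph.girth_le_length hc
  rw [SimpleGraph.Walk.length_cons, h1] at this
  omega

end cyc

section shape

variable {V : Type*} [Fintype V] [DecidableEq V]

lemma fp_eq {a : V} {L : List V} {i : ℕ} (hi : i ≤ L.length) : fp a L i = P a L i := by
  induction L generalizing i with
  | nil =>
    simp only [List.length_nil, nonpos_iff_eq_zero] at hi
    subst hi
    simp [fp, P]
  | cons w L ih =>
    have hr : (w :: L ++ [a]).reverse = (L ++ [a]).reverse ++ [w] := by simp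
    have hl : (L ++ [a]).reverse.length = L.length + 1 := by simp
    rcases Nat.lt_or_ge L.length i with h | h
    · have e : i = L.length + 1 := by simp only [List.length_cons] at hi; omega
      subst e
      rw [P_cons_last, fp, hr, List.getElem?_append_right (by omega), hl]
      simp
    · rw [P_cons_le h, ← ih h, fp, fp, hr, List.getElem?_append_left (by omega)]

lemma idx_P {a : V} {L : List V} (nd : (L ++ [a]).Nodup) {j : ℕ} (hj : j ≤ L.length) :
    (L ++ [a]).reverse.idxOf (P a L j) = j := by
  have hlt : j < (L ++ [a]).reverse.length := by simp; omega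
  have h1 : (L ++ [a]).reverse[j] = P a L j := by
    rw [← fp_eq hj, fp, List.getElem?_eq_getElem hlt, Option.getD_some]
  rw [← h1]
  exact (List.nodup_reverse.mpr nd).idxOf_getElem j hlt

end shape

end H625

open H625

section shape

variable {V : Type*} [Fintype V] [DecidableEq V] {Ω : Type*} [MeasurableSpace Ω]
variable {U : Sym2 Ω → ℝ}
variable {H : SimpleGraph V} {a : V} {L : List V} {B : Option (Option V)}
  {S : Finset V} {b : Bool}

theorem fp_zero : fp a L 0 = a := by
  rw [fp_eq (Nat.zero_le _), P_zero]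

theorem fp_last (hs : Shape H a L B S b) : fp a L L.length = hd a L := by
  rw [fp_eq le_rfl, P_last]

theorem fp_Bp (hs : Shape H a L B S b) {i : ℕ} (h : Bp a L B = some i) :
    B = some (some (fp a L i)) ∧ 2 ≤ i ∧ i + 1 ≤ L.length := by
  match B, h with
  | none, h => exact absurd h (by simp [Bp])
  | some none, h => exact absurd h (by simp [Bp])
  | some (some c), h =>
    obtain ⟨j, h1, h2, rfl⟩ := B_pos hs rfl
    simp only [Bp, Option.some.injEq] at h
    rw [idx_P hs.nd (by omega)] at h
    subst h
    exact ⟨by rw [fp_eq (by omega)], h1, h2⟩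

theorem fp_Tp (hs : Shape H a L B S b) {s : ℕ} (h : s ∈ Tp a L S) :
    fp a L s ∈ S ∧ s + 2 ≤ L.length := by
  obtain ⟨x, hx, rfl⟩ := mem_image.mp h
  obtain ⟨j, h1, rfl⟩ := S_pos hs hx
  rw [idx_P hs.nd (by omega), fp_eq (by omega)]
  exact ⟨hx, h1⟩

theorem card_Tp (hs : Shape H a L B S b) : (Tp a L S).card = S.card := by
  refine card_image_of_injOn ?_
  intro x hx y hy hxy
  obtain ⟨i, h1, rfl⟩ := S_pos hs hx
  obtain ⟨j, h2, rfl⟩ := S_pos hs hy
  simp only at hxy
  rw [idx_P hs.nd (by omega), idx_P hs.nd (by omega)] at hxy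
  rw [hxy]

theorem shape_cons (hs : Shape H a L B S b) {i : ℕ} (hi : i < L.length) :
    Cons a L (fp a L (i + 1)) (fp a L i) := by
  rw [fp_eq (by omega), fp_eq (by omega)]
  exact cons_iff.mpr ⟨i, hi, rfl, rfl⟩

lemma mem_KK {M : ℕ} {B : Option ℕ} {T : Finset ℕ} {c : ℕ × ℕ} :
    c ∈ KK M B T ↔ (∃ i, B = some i ∧ c = (0, i)) ∨ ∃ s ∈ T, c = (s, M) := by
  unfold KK
  rw [mem_union, mem_image]
  refine or_congr ?_ ?_
  · match B with
    | none => simp
    | some i => simp
  · constructor <;> rintro ⟨x, hx, rfl⟩ <;> exact ⟨x, hx, rfl⟩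

theorem shape_pos (hs : Shape H a L B S b) :
    Pos (fp a L) L.length (KK L.length (Bp a L B) (Tp a L S)) := by
  refine ⟨?_, ?_⟩
  · intro i hi j hj h
    rw [fp_eq hi, fp_eq hj] at h
    exact P_inj hs.nd hi hj h
  · intro c hc
    rcases mem_KK.mp hc with ⟨i, hB, rfl⟩ | ⟨s, hs', rfl⟩
    · have := fp_Bp hs hB
      exact ⟨by simp only; omega, by simp only; omega⟩
    · have := fp_Tp hs hs'
      exact ⟨by simp only; omega, by simp only; omega⟩

lemma Bp_iff (hs : Shape H a L B S b) {i : ℕ} (hi : i ≤ L.length) :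
    Bp a L B = some i ↔ B = some (some (P a L i)) := by
  constructor
  · intro h
    have := (fp_Bp hs h).1
    rwa [fp_eq hi] at this
  · rintro rfl
    simp only [Bp]
    rw [idx_P hs.nd hi]

lemma Tp_iff (hs : Shape H a L B S b) {s : ℕ} (hi : s ≤ L.length) :
    s ∈ Tp a L S ↔ P a L s ∈ S := by
  constructor
  · intro h
    have := (fp_Tp hs h).1
    rwa [fp_eq hi] at this
  · intro h
    exact mem_image.mpr ⟨_, h, idx_P hs.nd hi⟩

theorem PE_eq (hs : Shape H a L B S b) :
    PE (fp a L) L.length (KK L.length (Bp a L B) (Tp a L S)) = ED a L B S := by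
  ext e
  rw [PE, mem_union, mem_image, mem_image, mem_ED]
  refine or_congr ?_ ?_
  · constructor
    · rintro ⟨i, hi, rfl⟩
      rw [mem_range] at hi
      exact ⟨i, hi, by rw [fp_eq (by omega), fp_eq (by omega)]⟩
    · rintro ⟨i, hi, rfl⟩
      exact ⟨i, mem_range.mpr hi, by rw [fp_eq (by omega), fp_eq (by omega)]⟩
  · constructor
    · rintro ⟨c, hc, rfl⟩
      rcases mem_KK.mp hc with ⟨i, hB, rfl⟩ | ⟨s, hs', rfl⟩
      · have := fp_Bp hs hB
        exact Or.inl ⟨fp a L i, this.1, by rw [fp_zero]⟩
      · have := fp_Tp hs hs'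
        exact Or.inr ⟨fp a L s, this.1, by rw [fp_last hs]⟩
    · rintro (⟨c, hB, rfl⟩ | ⟨x, hx, rfl⟩)
      · obtain ⟨i, h1, h2, rfl⟩ := B_pos hs hB
        exact ⟨(0, i), mem_KK.mpr (Or.inl ⟨i, (Bp_iff hs (by omega)).mpr hB, rfl⟩), by
          simp only; rw [fp_zero, fp_eq (by omega)]⟩
      · obtain ⟨i, h1, rfl⟩ := S_pos hs hx
        exact ⟨(i, L.length), mem_KK.mpr (Or.inr ⟨i, (Tp_iff hs (by omega)).mpr hx, rfl⟩), by
          simp only; rw [fp_last hs, fp_eq (by omega)]⟩

theorem shape_int (hs : Shape H a L B S b) (h : V → Ω → ℝ) (z : V → Ω) :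
    pU U a L z * bc U a B z * (∏ x ∈ S, U s(z x, z (hd a L))) * ∏ x ∈ vs a L, h x (z x) =
      wt U (PE (fp a L) L.length (KK L.length (Bp a L B) (Tp a L S))) z *
        ∏ i ∈ range (L.length + 1), h (fp a L i) (z (fp a L i)) := by
  rw [wt_ED hs, PE_eq hs]
  congr 1
  have hv : vs a L = (range (L.length + 1)).image (fp a L) := by
    ext v
    rw [mem_vs, mem_image]
    constructor
    · rintro ⟨i, hi, rfl⟩
      exact ⟨i, mem_range.mpr (by omega), fp_eq hi⟩
    · rintro ⟨i, hi, rfl⟩
      rw [mem_range] at hi
      exact ⟨i, by omega, (fp_eq (by omega)).symm⟩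
  rw [hv, prod_image]
  intro i hi j hj hij
  rw [coe_range, Set.mem_Iio] at hi hj
  exact (shape_pos hs).inj i (by omega) j (by omega) hij

/-- the cycles of a shape, if the half girth is at least two -/
theorem shape_gir_of (hs : Shape H a L B S b) (hk : 2 ≤ gk a L B S) :
    Gir L.length (Bp a L B) (Tp a L S) (gk a L B S) := by
  set M := L.length with hM
  have hg : 2 * gk a L B S ≤ (FG a L B S).girth := by
    unfold gk; omega
  have hinj : ∀ i ≤ M, ∀ j ≤ M, P a L i = P a L j → i = j := fun i hi j hj h =>
    P_inj hs.nd hi hj h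
  have hadj : ∀ i < M, (FG a L B S).Adj (P a L i) (P a L (i + 1)) := fun i hi =>
    (adj_iff hs).mpr (mem_ED.mpr (Or.inl ⟨i, hi, rfl⟩))
  have hadj' : ∀ i < M, (FG a L B S).Adj (P a L (i + 1)) (P a L i) := fun i hi => (hadj i hi).symm
  have hB : ∀ i, Bp a L B = some i → (FG a L B S).Adj (P a L i) (P a L 0) := by
    intro i hi
    have h1 := fp_Bp hs hi
    refine SimpleGraph.Adj.symm ((adj_iff hs).mpr (mem_ED.mpr (Or.inr (Or.inl ⟨_, h1.1, ?_⟩))))
    rw [P_zero, fp_eq (by omega)]
  have hT : ∀ s ∈ Tp a L S, (FG a L B S).Adj (P a L s) (P a L M) := by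
    intro s hs'
    have h1 := fp_Tp hs hs'
    refine (adj_iff hs).mpr (mem_ED.mpr (Or.inr (Or.inr ⟨_, h1.1, ?_⟩)))
    rw [P_last, fp_eq (by omega)]
  refine ⟨hk, ?_, ?_, ?_, ?_, ?_, ?_⟩
  · intro i hi
    have := fp_Bp hs hi
    omega
  · intro s hs'
    have := fp_Tp hs hs'
    omega
  · -- 0, …, i
    intro i hi
    have h1 := fp_Bp hs hi
    refine hg.trans (girth_le_pos (f := P a L) (by omega) ?_ ?_ ?_)
    · intro x hx y hy h
      exact hinj x (by omega) y (by omega) h
    · intro x hx
      exact hadj x (by omega)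
    · exact hB i hi
  · -- s, …, M
    intro s hs'
    have h1 := fp_Tp hs hs'
    have := girth_le_pos (G := FG a L B S) (f := fun j => P a L (s + j)) (n := M + 1 - s)
      (by omega) ?_ ?_ ?_
    · omega
    · intro x hx y hy h
      have := hinj (s + x) (by omega) (s + y) (by omega) h
      omega
    · intro x hx
      exact hadj (s + x) (by omega)
    · have e : s + (M + 1 - s - 1) = M := by omega
      simp only [e, Nat.add_zero]
      exact (hT s hs').symm
  · -- s, …, s', M
    intro s hs' s' hs'' hlt
    have h1 := fp_Tp hs hs'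
    have h2 := fp_Tp hs hs''
    have := girth_le_pos (G := FG a L B S)
      (f := fun j => if j ≤ s' - s then P a L (s + j) else P a L M) (n := s' - s + 2)
      (by omega) ?_ ?_ ?_
    · omega
    · intro x hx y hy h
      try simp only at h
      by_cases c1 : x ≤ s' - s
      · by_cases c2 : y ≤ s' - s
        · rw [if_pos c1, if_pos c2] at h
          have := hinj (s + x) (by omega) (s + y) (by omega) h
          omega
        · rw [if_pos c1, if_neg c2] at h
          have := hinj (s + x) (by omega) M le_rfl h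
          omega
      · by_cases c2 : y ≤ s' - s
        · rw [if_neg c1, if_pos c2] at h
          have := hinj M le_rfl (s + y) (by omega) h
          omega
        · omega
    · intro x hx
      try simp only
      rw [if_pos (by omega)]
      by_cases c : x + 1 ≤ s' - s
      · rw [if_pos c]
        exact hadj (s + x) (by omega)
      · rw [if_neg c]
        have e : s + x = s' := by omega
        rw [e]
        exact hT s' hs''
    · have e : ¬ (s' - s + 2 - 1 ≤ s' - s) := by omega
      simp only [if_neg e, Nat.add_zero, if_pos (Nat.zero_le _)]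
      exact (hT s hs').symm
  · -- 0, …, s, M, …, i
    intro i hi s hs' hlt
    have h1 := fp_Bp hs hi
    have h2 := fp_Tp hs hs'
    have := girth_le_pos (G := FG a L B S)
      (f := fun j => if j ≤ s then P a L j else P a L (M + s + 1 - j)) (n := s + M + 2 - i)
      (by omega) ?_ ?_ ?_
    · omega
    · intro x hx y hy h
      try simp only at h
      by_cases c1 : x ≤ s
      · by_cases c2 : y ≤ s
        · rw [if_pos c1, if_pos c2] at h
          exact hinj x (by omega) y (by omega) h
        · rw [if_pos c1, if_neg c2] at h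
          have := hinj x (by omega) (M + s + 1 - y) (by omega) h
          omega
      · by_cases c2 : y ≤ s
        · rw [if_neg c1, if_pos c2] at h
          have := hinj (M + s + 1 - x) (by omega) y (by omega) h
          omega
        · rw [if_neg c1, if_neg c2] at h
          have := hinj (M + s + 1 - x) (by omega) (M + s + 1 - y) (by omega) h
          omega
    · intro x hx
      try simp only
      by_cases c1 : x + 1 ≤ s
      · rw [if_pos (by omega), if_pos c1]
        exact hadj x (by omega)
      · by_cases c2 : x ≤ s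
        · rw [if_pos c2, if_neg c1]
          have e1 : x = s := by omega
          have e2 : M + s + 1 - (x + 1) = M := by omega
          rw [e2, e1]
          exact hT s hs'
        · rw [if_neg c2, if_neg c1]
          have e2 : M + s + 1 - x = (M + s + 1 - (x + 1)) + 1 := by omega
          rw [e2]
          exact hadj' _ (by omega)
    · have e1 : ¬ (s + M + 2 - i - 1 ≤ s) := by omega
      have e2 : M + s + 1 - (s + M + 2 - i - 1) = i := by omega
      simp only [if_neg e1, if_pos (Nat.zero_le _), e2]
      exact hB i hi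

/-- C2 from the cycle inequalities -/
theorem gk_le_of (hs : Shape H a L B S false) (hB : B ≠ some none)
    (hg : Gir L.length (Bp a L B) (Tp a L S) (gk a L B S)) :
    3 * gk a L B S ≤ L.length + 2 := by
  have hcases : B = none ∨ ∃ c, B = some (some c) := by
    match B, hB with
    | none, _ => exact Or.inl rfl
    | some none, h => exact absurd rfl h
    | some (some c), _ => exact Or.inr ⟨c, rfl⟩
  rcases hcases with h0 | ⟨c, h0⟩
  · -- two elements of `T`
    have h2 : 2 ≤ (Tp a L S).card := by
      have := hs.two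
      rw [if_pos h0] at this
      rw [card_Tp hs]
      simpa using this
    obtain ⟨x, hx, y, hy, hxy⟩ := one_lt_card.mp (by omega : 1 < (Tp a L S).card)
    rcases Nat.lt_or_gt_of_ne hxy with h | h
    · have e1 := hg.g2 x hx y hy h
      have e2 := hg.g1 y hy
      omega
    · have e1 := hg.g2 y hy x hx h
      have e2 := hg.g1 x hx
      omega
  · have h1 : 1 ≤ (Tp a L S).card := by
      have := hs.one
      rw [card_Tp hs]
      simpa using this
    obtain ⟨s, hs'⟩ := card_pos.mp (by omega : 0 < (Tp a L S).card)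
    obtain ⟨i, hi⟩ : ∃ i, Bp a L B = some i := ⟨_, by rw [h0]; rfl⟩
    have e1 := hg.g1 s hs'
    have e3 := hg.g3 i hi
    rcases Nat.lt_or_ge s i with h | h
    · have e4 := hg.g4 i hi s hs' h
      omega
    · omega

end shape

end Vale.Agent.P050.Opt
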