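import Vale.Agent.P050.O.H15.CycCount
import Mathlib.Combinatorics.SimpleGraph.Coloring.Constructions

set_option linter.all false

/-!
Dense targets: a bipartite graph with a cycle has a canonical cycle.
-/

open Finset

namespace Vale.Agent.P050.Opt

open Vale.Agent.P050 Vale.Agent.P050.Dense

variable {V : Type*} [Fintype V] [DecidableEq V]

/-- a bipartite graph with a cycle has a canonical cycle, for every order -/
theorem cyc_nonempty (H : SimpleGraph V) [DecidableRel H.Adj] (o : V → ℕ)
    (ho : Function.Injective o) (hH : H.IsBipartite) (hc : ¬ H.IsAcyclic) :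
    ∃ k, 2 ≤ k ∧ k < Fintype.card V ∧ (Cyc H o k).Nonempty := by
  rw [SimpleGraph.IsAcyclic] at hc
  push Not at hc
  obtain ⟨u, w, hw⟩ := hc
  have he : Even w.length := SimpleGraph.two_colorable_iff_forall_loop_even.mp hH _ w
  have h3 := hw.three_le_length
  obtain ⟨k, hk⟩ := he
  have hl : w.length = 2 * k := by omega
  have hk2 : 2 ≤ k := by omega
  have hy := H15.isCyc_of_isCycle hw hl
  refine ⟨k, hk2, ?_, ?_⟩
  · have := Fintype.card_le_of_injective _ hy.1
    rw [Fintype.card_fin] at this
    omega
  · have := H15.card_IsCyc_le ho hk2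
      ({fun i : Fin (2 * k) => w.getVert i} : Finset (Fin (2 * k) → V)) (by
      intro y hy'
      rw [mem_singleton] at hy'
      rw [hy']
      exact hy)
    rw [card_singleton] at this
    refine card_pos.mp ?_
    rcases Nat.eq_zero_or_pos (Cyc H o k).card with h | h
    · rw [h] at this
      omega
    · exact h

end Vale.Agent.P050.Opt
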