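import Vale.Agent.P050.O.H300.EntDefs

set_option linter.all false

/-!
Dense targets, built graphs: the total weight of a forest.
-/

open MeasureTheory Finset

namespace Vale.Agent.P050.Opt

open Vale.Agent.P050 Vale.Agent.P050.Dense

namespace H625

/-- a forest with an edge has a leaf -/
theorem exists_leaf {V : Type*} [Fintype V] {H : SimpleGraph V} (hH : H.IsAcyclic)
    (hne : ∃ u v, H.Adj u v) : ∃ u v, H.Adj u v ∧ ∀ w, H.Adj v w → w = u := by
  by_contra hno
  push Not at hno
  obtain ⟨a, b, hab⟩ := hne
  have key : ∀ n, ∃ v, ∃ p : H.Walk a v, p.IsPath ∧ p.length = n + 1 := by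
    intro n
    induction n with
    | zero =>
      refine ⟨b, SimpleGraph.Walk.cons hab SimpleGraph.Walk.nil, ?_, by simp⟩
      simp [SimpleGraph.Walk.cons_isPath_iff, hab.ne]
    | succ n ih =>
      obtain ⟨v, p, hp, hl⟩ := ih
      have hnil : ¬ p.Nil := by
        intro h
        rw [SimpleGraph.Walk.nil_iff_length_eq] at h
        omega
      have hadj : H.Adj p.penultimate v := p.adj_penultimate hnil
      obtain ⟨w, hw, hwn⟩ := hno _ _ hadj
      have hns : w ∉ p.support := fun h => hwn (hH.eq_penultimate_of_adj_end hp hw h)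
      exact ⟨w, p.concat hw, hp.concat hns hw, by rw [SimpleGraph.Walk.length_concat, hl]⟩
  obtain ⟨v, p, hp, hl⟩ := key (Fintype.card V)
  have := hp.length_lt
  omega

variable {V : Type} [Fintype V] [DecidableEq V] {Ω : Type} [Fintype Ω] [DecidableEq Ω]

/-- the coordinate `v` is averaged -/
theorem sum_swap {w : Ω → ℝ} (hs : ∑ s, w s = 1) (v : V) (g : Ω → (V → Ω) → ℝ)
    (hg : ∀ s z t, g s (Function.update z v t) = g s z) :
    ∑ z : V → Ω, w (z v) * g (z v) z = ∑ z : V → Ω, w (z v) * ∑ t, w t * g t z := by
  have h1 : ∀ z : V → Ω, w (z v) * g (z v) z = ∑ t, w (z v) * w t * g (z v) z := by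
    intro z
    rw [← sum_mul, ← mul_sum, hs, mul_one]
  have h2 : ∀ z : V → Ω, w (z v) * ∑ t, w t * g t z = ∑ t, w (z v) * w t * g t z := by
    intro z
    rw [mul_sum]
    exact sum_congr rfl fun t _ => by ring
  rw [sum_congr rfl fun z _ => h1 z, sum_congr rfl fun z _ => h2 z,
    ← Fintype.sum_prod_type' (f := fun (z : V → Ω) (t : Ω) => w (z v) * w t * g (z v) z),
    ← Fintype.sum_prod_type' (f := fun (z : V → Ω) (t : Ω) => w (z v) * w t * g t z)]
  let e : ((V → Ω) × Ω) ≃ ((V → Ω) × Ω) :=
    ⟨fun p => (Function.update p.1 v p.2, p.1 v), fun p => (Function.update p.1 v p.2, p.1 v),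
      fun p => by simp, fun p => by simp⟩
  refine Fintype.sum_equiv e _ _ ?_
  intro p
  show w (p.1 v) * w p.2 * g (p.1 v) p.1 =
    w (Function.update p.1 v p.2 v) * w (p.1 v) * g (p.1 v) (Function.update p.1 v p.2)
  rw [hg, Function.update_self]
  ring

open scoped Classical in
/-- the edges -/
noncomputable def es {V : Type} [Fintype V] (G : SimpleGraph V) : Finset (Sym2 V) :=
  univ.filter fun e => e ∈ G.edgeSet

lemma mem_es {V : Type} [Fintype V] {G : SimpleGraph V} {e : Sym2 V} :
    e ∈ es G ↔ e ∈ G.edgeSet := by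
  simp [es]

lemma mH_es (G : SimpleGraph V) (w : Ω → ℝ) (U : Sym2 Ω → ℝ) (z : V → Ω) :
    mH G w U z = (∏ v, w (z v)) * ∏ e ∈ es G, (1 + U (e.map z)) := by
  unfold mH
  congr 1
  refine prod_congr ?_ fun _ _ => rfl
  ext e
  rw [mem_es]
  simp only [SimpleGraph.edgeFinset, Set.mem_toFinset]

end H625

open H625

/-- E3a: the total weight of a forest is `1` -/
theorem H625.sum_mH_forest {V : Type} [Fintype V] [DecidableEq V] {Ω : Type} [Fintype Ω]
    [DecidableEq Ω] {H : SimpleGraph V} (hH : H.IsAcyclic) {w : Ω → ℝ} {U : Sym2 Ω → ℝ}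
    (hw : Wt w U) : ∑ z : V → Ω, mH H w U z = 1 := by
  suffices h : ∀ n, ∀ H : SimpleGraph V, H.IsAcyclic → (es H).card = n →
      ∑ z : V → Ω, mH H w U z = 1 from h _ H hH rfl
  intro n
  induction n with
  | zero =>
    intro H _ hc
    rw [card_eq_zero] at hc
    have h1 : ∀ z : V → Ω, mH H w U z = ∏ v, w (z v) := by
      intro z
      rw [mH_es, hc, prod_empty, mul_one]
    rw [sum_congr rfl fun z _ => h1 z, ← Fintype.piFinset_univ,
      ← prod_univ_sum (fun _ : V => (univ : Finset Ω)) (fun _ s => w s)]
    simp [hw.sum]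
  | succ n ih =>
    intro H hH hc
    obtain ⟨u, v, huv, hleaf⟩ := exists_leaf hH (by
      have : (es H).Nonempty := card_pos.mp (by omega)
      obtain ⟨e, he⟩ := this
      induction e with
      | h a b =>
        rw [mem_es, SimpleGraph.mem_edgeSet] at he
        exact ⟨a, b, he⟩)
    obtain ⟨H', hH'⟩ : ∃ H', H' = H.deleteEdges {s(u, v)} := ⟨_, rfl⟩
    have hE : es H = insert s(u, v) (es H') := by
      ext e
      rw [mem_insert, mem_es, mem_es, hH',
        SimpleGraph.edgeSet_deleteEdges, Set.mem_diff, Set.mem_singleton_iff]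
      constructor
      · intro h
        by_cases he : e = s(u, v)
        · exact Or.inl he
        · exact Or.inr ⟨h, he⟩
      · rintro (rfl | h)
        · exact huv
        · exact h.1
    have hn : s(u, v) ∉ es H' := by
      rw [mem_es, hH', SimpleGraph.edgeSet_deleteEdges]
      simp
    have hcard : (es H').card = n := by
      rw [hE, card_insert_of_notMem hn] at hc
      omega
    have hv : ∀ e ∈ es H', v ∉ e := by
      intro e he hve
      induction e with
      | h a b =>
        rw [mem_es, hH', SimpleGraph.edgeSet_deleteEdges, Set.mem_diff,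
          Set.mem_singleton_iff, SimpleGraph.mem_edgeSet] at he
        rw [Sym2.mem_iff] at hve
        rcases hve with rfl | rfl
        · have := hleaf b he.1
          subst this
          exact he.2 Sym2.eq_swap
        · have := hleaf a he.1.symm
          subst this
          exact he.2 rfl
    -- the part which does not depend on `v`
    obtain ⟨K, hK⟩ : ∃ K : (V → Ω) → ℝ, ∀ z, K z = (∏ x ∈ univ.erase v, w (z x)) *
      ∏ e ∈ es H', (1 + U (e.map z)) := ⟨_, fun _ => rfl⟩
    have hKv : ∀ z t, K (Function.update z v t) = K z := by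
      intro z t
      rw [hK, hK]
      congr 1
      · refine prod_congr rfl fun x hx => ?_
        rw [Function.update_of_ne (ne_of_mem_erase hx)]
      · refine prod_congr rfl fun e he => ?_
        congr 2
        refine Sym2.map_congr fun x hx => ?_
        rw [Function.update_of_ne]
        rintro rfl
        exact hv e he hx
    have hmH : ∀ (G : SimpleGraph V) (z : V → Ω), mH G w U z =
        w (z v) * (∏ x ∈ univ.erase v, w (z x)) * ∏ e ∈ es G, (1 + U (e.map z)) := by
      intro G z
      rw [mH_es, ← mul_prod_erase univ (fun x => w (z x)) (mem_univ v)]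
    have e1 : ∀ z, mH H w U z = w (z v) * ((1 + U s(z u, z v)) * K z) := by
      intro z
      rw [hmH, hE, prod_insert hn, hK, Sym2.map_mk]
      ring
    have e2 : ∀ z, mH H' w U z = w (z v) * K z := by
      intro z
      rw [hmH, hK]
      ring
    have huv' : u ≠ v := huv.ne
    rw [sum_congr rfl fun z _ => e1 z,
      sum_swap hw.sum v (fun t z => (1 + U s(z u, t)) * K z) (by
        intro s z t
        beta_reduce
        rw [hKv, Function.update_of_ne huv'])]
    have hac : H'.IsAcyclic := by
      rw [hH']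
      exact hH.anti (SimpleGraph.deleteEdges_le _)
    refine Eq.trans ?_ (ih H' hac hcard)
    refine sum_congr rfl fun z _ => ?_
    rw [e2]
    congr 1
    have : ∑ t, w t * ((1 + U s(z u, t)) * K z) = (∑ t, w t + ∑ t, w t * U s(z u, t)) * K z := by
      rw [← sum_add_distrib, sum_mul]
      exact sum_congr rfl fun t _ => by ring
    rw [this, hw.sum, hw.marg, add_zero, one_mul]

end Vale.Agent.P050.Opt
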