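import Vale.Agent.P050.O.H300.EntDefs

set_option linter.all false

/-!
Dense targets, built graphs: weights from kernels, finiteness, bipartiteness, the induction.
-/

open MeasureTheory Finset

namespace Vale.Agent.P050.Opt

open Vale.Agent.P050 Vale.Agent.P050.Dense

/-- E6 -/
theorem wt_of_ker {Ω : Type} [Fintype Ω] [DecidableEq Ω] [MeasurableSpace Ω]
    [MeasurableSingletonClass Ω] (μ : Measure Ω)
    [IsProbabilityMeasure μ] (hμ : ∀ s, 0 < μ.real {s}) {U : Sym2 Ω → ℝ} {κ η : ℝ}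
    (hU : Ker μ U κ η) : Wt (fun s => μ.real {s}) U := by
  have hsum : ∀ f : Ω → ℝ, ∫ x, f x ∂μ = ∑ x, μ.real {x} * f x := by
    intro f
    rw [integral_fintype Integrable.of_finite]
    rfl
  refine ⟨hμ, ?_, ?_, ?_⟩
  · have := hsum (fun _ => 1)
    simp only [mul_one, integral_const, probReal_univ, smul_eq_mul] at this
    exact this.symm
  · intro e
    have h1 := hU.good.bdd e
    rw [abs_le] at h1
    linarith [h1.1]
  · intro s
    have := hU.zero s
    rw [hsum] at this
    exact this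

namespace H625

lemma bip_iff {V : Type*} {H : SimpleGraph V} :
    H.IsBipartite ↔ ∃ c : V → Bool, ∀ u v, H.Adj u v → c u ≠ c v := by
  constructor
  · rintro ⟨C⟩
    refine ⟨fun v => decide (C v = 0), fun u v h => ?_⟩
    have h1 := C.valid h
    intro h2
    rw [decide_eq_decide] at h2
    apply h1
    by_cases hu : C u = 0
    · rw [hu, h2.mp hu]
    · have hv : C v ≠ 0 := fun h => hu (h2.mpr h)
      apply Fin.ext
      have a1 := (C u).2
      have a2 := (C v).2
      have a3 : (C u).val ≠ 0 := fun h => hu (Fin.ext h)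
      have a4 : (C v).val ≠ 0 := fun h => hv (Fin.ext h)
      omega
  · rintro ⟨c, hc⟩
    have C : H.Coloring Bool := SimpleGraph.Coloring.mk c (fun {u v} h => hc u v h)
    have := C.colorable
    rwa [Fintype.card_bool] at this

end H625

open H625

/-- all built graphs are finite -/
theorem Built.finite {D : ℕ} {V : Type} {H : SimpleGraph V} (h : Built D V H) : Finite V := by
  induction h with
  | base V H hV _ _ => exact hV
  | dom V H a hV _ => exact hV
  | glue V₁ V₂ V H₁ H₂ f₁ f₂ _ _ _ hc i1 i2 =>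
    have := i1
    have := i2
    refine Finite.of_surjective (Sum.elim f₁ f₂) ?_
    intro x
    rcases hc x with ⟨u, hu⟩ | ⟨v, hv⟩
    · exact ⟨Sum.inl u, hu⟩
    · exact ⟨Sum.inr v, hv⟩
  | copies V₀ V ι H S f hι _ _ _ _ h3 i1 =>
    have := i1
    have := hι
    refine Finite.of_surjective (fun p : ι × V₀ => f p.1 p.2) ?_
    intro x
    obtain ⟨i, u, h⟩ := h3 x
    exact ⟨(i, u), h⟩

/-- all built graphs are bipartite -/
theorem Built.bip {D : ℕ} {V : Type} {H : SimpleGraph V} (h : Built D V H) :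
    H.IsBipartite := by
  classical
  induction h with
  | base V H _ hb _ => exact hb
  | dom V H a _ h =>
    refine bip_iff.mpr ⟨fun v => decide (H.Adj a v), fun u v huv e => ?_⟩
    rw [decide_eq_decide] at e
    have := h u v huv
    tauto
  | glue V₁ V₂ V H₁ H₂ f₁ f₂ _ _ h hc i1 i2 =>
    obtain ⟨c₁, h₁⟩ := bip_iff.mp i1
    obtain ⟨c₂, h₂⟩ := bip_iff.mp i2
    -- adjust the second colouring
    obtain ⟨d, hd, hdc⟩ : ∃ d : V₂ → Bool, (∀ u v, H₂.Adj u v → d u ≠ d v) ∧
        ∀ u v, f₁ u = f₂ v → c₁ u = d v := by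
      by_cases ho : ∃ u v, f₁ u = f₂ v
      · obtain ⟨u, v, huv⟩ := ho
        refine ⟨fun x => (c₂ x).xor ((c₂ v).xor (c₁ u)), fun x y hxy e => ?_, fun u' v' e => ?_⟩
        · apply h₂ x y hxy
          simpa using e
        · have e1 : u' = u := h u' v' u v e huv
          subst e1
          have e2 : v' = v := f₂.injective (e.symm.trans huv)
          subst e2
          simp [← Bool.xor_assoc]
      · exact ⟨c₂, h₂, fun u v e => absurd ⟨u, v, e⟩ ho⟩
    refine bip_iff.mpr ⟨fun x => if hx : ∃ u, f₁ u = x then c₁ hx.choose else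
      if hy : ∃ v, f₂ v = x then d hy.choose else false, ?_⟩
    have e1 : ∀ u, (if hx : ∃ u', f₁ u' = f₁ u then c₁ hx.choose else
        if hy : ∃ v, f₂ v = f₁ u then d hy.choose else false) = c₁ u := by
      intro u
      have hx : ∃ u', f₁ u' = f₁ u := ⟨u, rfl⟩
      rw [dif_pos hx]
      rw [f₁.injective hx.choose_spec]
    have e2 : ∀ v, (if hx : ∃ u', f₁ u' = f₂ v then c₁ hx.choose else
        if hy : ∃ v', f₂ v' = f₂ v then d hy.choose else false) = d v := by
      intro v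
      by_cases hx : ∃ u', f₁ u' = f₂ v
      · rw [dif_pos hx]
        exact hdc _ _ hx.choose_spec
      · rw [dif_neg hx]
        have hy : ∃ v', f₂ v' = f₂ v := ⟨v, rfl⟩
        rw [dif_pos hy]
        rw [f₂.injective hy.choose_spec]
    intro x y hxy
    rw [SimpleGraph.sup_adj, SimpleGraph.map_adj, SimpleGraph.map_adj] at hxy
    rcases hxy with ⟨u, v, huv, rfl, rfl⟩ | ⟨u, v, huv, rfl, rfl⟩
    · simp only
      rw [e1, e1]
      exact h₁ u v huv
    · simp only
      rw [e2, e2]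
      exact hd u v huv
  | copies V₀ V ι H S f _ _ _ _ h2 _ i1 =>
    obtain ⟨c, hc⟩ := bip_iff.mp i1
    refine bip_iff.mpr ⟨fun x => if hx : ∃ u, ∃ i, f i u = x then c hx.choose else false, ?_⟩
    have e1 : ∀ i u, (if hx : ∃ u', ∃ j, f j u' = f i u then c hx.choose else false) = c u := by
      intro i u
      have hx : ∃ u', ∃ j, f j u' = f i u := ⟨u, i, rfl⟩
      rw [dif_pos hx]
      obtain ⟨j, hj⟩ := hx.choose_spec
      rw [(h2 j i _ _ hj).1]
    intro x y hxy
    rw [SimpleGraph.iSup_adj] at hxy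
    obtain ⟨i, hi⟩ := hxy
    rw [SimpleGraph.map_adj] at hi
    obtain ⟨u, v, huv, rfl, rfl⟩ := hi
    simp only
    rw [e1, e1]
    exact hc u v huv

/-- the induction, from the four cases -/
theorem ent_built_of {D : ℕ} {V Ω : Type} [Fintype Ω] [DecidableEq Ω] {w : Ω → ℝ}
    {U : Sym2 Ω → ℝ}
    (hbase : ∀ (V : Type) [Fintype V] [DecidableEq V] (H : SimpleGraph V), H.IsBipartite →
      (∀ v, (H.neighborSet v).ncard ≤ D) → Ent H w U)
    (hdom : ∀ (V : Type) [Fintype V] [DecidableEq V] (H : SimpleGraph V) (a : V),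
      (∀ u v, H.Adj u v → (H.Adj a u ↔ ¬ H.Adj a v)) → Ent H w U)
    (hglue : ∀ (V₁ V₂ V : Type) [Fintype V₁] [DecidableEq V₁] [Fintype V₂] [DecidableEq V₂]
      [Fintype V] [DecidableEq V] (H₁ : SimpleGraph V₁) (H₂ : SimpleGraph V₂) (f₁ : V₁ ↪ V)
      (f₂ : V₂ ↪ V), (∀ u v u' v', f₁ u = f₂ v → f₁ u' = f₂ v' → u = u') →
      (∀ x, (∃ u, f₁ u = x) ∨ ∃ v, f₂ v = x) → Ent H₁ w U → Ent H₂ w U →
        Ent (H₁.map f₁ ⊔ H₂.map f₂) w U)
    (hcopies : ∀ (V₀ V ι : Type) [Fintype V₀] [DecidableEq V₀] [Fintype V] [DecidableEq V]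
      [Fintype ι] (H : SimpleGraph V₀) (S : Set V₀) (f : ι → V₀ ↪ V), (H.induce S).IsAcyclic →
      (∀ i j, ∀ u ∈ S, f i u = f j u) → (∀ i j u v, f i u = f j v → u = v ∧ (i = j ∨ u ∈ S)) →
      (∀ x, ∃ i u, f i u = x) → Ent H w U → Ent (⨆ i, H.map (f i)) w U)
    {H : SimpleGraph V} (h : Built D V H) :
    ∀ [Fintype V] [DecidableEq V], Ent H w U := by
  classical
  induction h with
  | base V H _ hb hD =>
    intro _ _
    exact hbase V H hb hD
  | dom V H a _ h =>
    intro _ _
    exact hdom V H a h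
  | glue V₁ V₂ V H₁ H₂ f₁ f₂ g1 g2 h hc i1 i2 =>
    intro _ _
    haveI := g1.finite
    haveI := g2.finite
    letI : Fintype V₁ := Fintype.ofFinite V₁
    letI : Fintype V₂ := Fintype.ofFinite V₂
    letI : DecidableEq V₁ := Classical.decEq V₁
    letI : DecidableEq V₂ := Classical.decEq V₂
    exact hglue V₁ V₂ V H₁ H₂ f₁ f₂ h hc i1 i2
  | copies V₀ V ι H S f hι g1 h0 h1 h2 h3 i1 =>
    intro _ _
    haveI := g1.finite
    haveI := hι
    letI : Fintype V₀ := Fintype.ofFinite V₀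
    letI : Fintype ι := Fintype.ofFinite ι
    letI : DecidableEq V₀ := Classical.decEq V₀
    exact hcopies V₀ V ι H S f h0 h1 h2 h3 i1

end Vale.Agent.P050.Opt
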