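import Vale.Agent.P050.O.H300.AsmDefs
import Vale.Agent.P050.O.H625.Built

set_option linter.all false

/-!
Dense targets, assembled graphs: finiteness, bipartiteness, the induction.
-/

open MeasureTheory Finset

namespace Vale.Agent.P050.Opt

open Vale.Agent.P050 Vale.Agent.P050.Dense

open H625

namespace H625

/-- in a tree-like union of copies a vertex has only one name -/
theorem name_unique {V₀ V : Type} {n : ℕ} {f : Fin (n + 1) → V₀ ↪ V}
    (h : ∀ i, i ≠ 0 → ∃ j < i, ∃ S : Set V₀, (∀ u ∈ S, f i u = f j u) ∧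
      ∀ u ∉ S, ∀ l < i, ∀ v, f l v ≠ f i u) :
    ∀ (i l : Fin (n + 1)) (u v : V₀), f i u = f l v → u = v := by
  have key : ∀ m : ℕ, ∀ (i l : Fin (n + 1)) (u v : V₀), (i : ℕ) + l ≤ m → l ≤ i →
      f i u = f l v → u = v := by
    intro m
    induction m with
    | zero =>
      intro i l u v hm _ e
      have hi : i = l := by
        apply Fin.ext
        omega
      subst hi
      exact (f i).injective e
    | succ m ih =>
      intro i l u v hm hl e
      rcases eq_or_lt_of_le hl with rfl | hlt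
      · exact (f l).injective e
      · have hi0 : i ≠ 0 := by
          rintro rfl
          exact absurd hlt (Fin.not_lt_zero l)
        obtain ⟨j, hj, S, h1, h2⟩ := h i hi0
        have huS : u ∈ S := by
          by_contra hu
          exact h2 u hu l hlt v e.symm
        have e' : f j u = f l v := (h1 u huS).symm.trans e
        have hj' : (j : ℕ) < i := hj
        have hl' : (l : ℕ) < i := hlt
        rcases le_total l j with hlj | hlj
        · exact ih j l u v (by omega) hlj e'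
        · exact (ih l j v u (by omega) hlj e'.symm).symm
  intro i l u v e
  rcases le_total l i with h1 | h1
  · exact key _ i l u v le_rfl h1 e
  · exact (key _ l i v u le_rfl h1 e.symm).symm

/-- colouring a union of copies in which every vertex has one name -/
theorem bip_copies {V₀ V ι : Type} {H : SimpleGraph V₀} {f : ι → V₀ ↪ V} (hH : H.IsBipartite)
    (h : ∀ (i l : ι) (u v : V₀), f i u = f l v → u = v) : (⨆ i, H.map (f i)).IsBipartite := by
  classical
  obtain ⟨c, hc⟩ := bip_iff.mp hH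
  refine bip_iff.mpr ⟨fun x => if hx : ∃ u, ∃ i, f i u = x then c hx.choose else false, ?_⟩
  have e1 : ∀ i u, (if hx : ∃ u', ∃ j, f j u' = f i u then c hx.choose else false) = c u := by
    intro i u
    have hx : ∃ u', ∃ j, f j u' = f i u := ⟨u, i, rfl⟩
    rw [dif_pos hx]
    obtain ⟨j, hj⟩ := hx.choose_spec
    rw [h j i _ _ hj]
  intro x y hxy
  rw [SimpleGraph.iSup_adj] at hxy
  obtain ⟨i, hi⟩ := hxy
  rw [SimpleGraph.map_adj] at hi
  obtain ⟨u, v, huv, rfl, rfl⟩ := hi
  simp only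
  rw [e1, e1]
  exact hc u v huv

/-- colouring two graphs glued at one vertex -/
theorem bip_glue {V₁ V₂ V : Type} {H₁ : SimpleGraph V₁} {H₂ : SimpleGraph V₂} {f₁ : V₁ ↪ V}
    {f₂ : V₂ ↪ V} (i1 : H₁.IsBipartite) (i2 : H₂.IsBipartite)
    (h : ∀ u v u' v', f₁ u = f₂ v → f₁ u' = f₂ v' → u = u') :
    (H₁.map f₁ ⊔ H₂.map f₂).IsBipartite := by
  classical
  obtain ⟨c₁, h₁⟩ := bip_iff.mp i1
  obtain ⟨c₂, h₂⟩ := bip_iff.mp i2
  obtain ⟨d, hd, hdc⟩ : ∃ d : V₂ → Bool, (∀ u v, H₂.Adj u v → d u ≠ d v) ∧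
      ∀ u v, f₁ u = f₂ v → c₁ u = d v := by
    by_cases ho : ∃ u v, f₁ u = f₂ v
    · obtain ⟨u, v, huv⟩ := ho
      refine ⟨fun x => (c₂ x).xor ((c₂ v).xor (c₁ u)), fun x y hxy e => ?_, fun u' v' e => ?_⟩
      · apply h₂ x y hxy
        simpa using e
      · have e1 : u' = u := h u' v' u v e huv
        subst e1
        have e2 : v' = v := f₂.injective (e.symm.trans huv)
        subst e2
        simp [← Bool.xor_assoc]
    · exact ⟨c₂, h₂, fun u v e => absurd ⟨u, v, e⟩ ho⟩
  refine bip_iff.mpr ⟨fun x => if hx : ∃ u, f₁ u = x then c₁ hx.choose else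
    if hy : ∃ v, f₂ v = x then d hy.choose else false, ?_⟩
  have e1 : ∀ u, (if hx : ∃ u', f₁ u' = f₁ u then c₁ hx.choose else
      if hy : ∃ v, f₂ v = f₁ u then d hy.choose else false) = c₁ u := by
    intro u
    have hx : ∃ u', f₁ u' = f₁ u := ⟨u, rfl⟩
    rw [dif_pos hx]
    rw [f₁.injective hx.choose_spec]
  have e2 : ∀ v, (if hx : ∃ u', f₁ u' = f₂ v then c₁ hx.choose else
      if hy : ∃ v', f₂ v' = f₂ v then d hy.choose else false) = d v := by
    intro v
    by_cases hx : ∃ u', f₁ u' = f₂ v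
    · rw [dif_pos hx]
      exact hdc _ _ hx.choose_spec
    · rw [dif_neg hx]
      have hy : ∃ v', f₂ v' = f₂ v := ⟨v, rfl⟩
      rw [dif_pos hy]
      rw [f₂.injective hy.choose_spec]
  intro x y hxy
  rw [SimpleGraph.sup_adj, SimpleGraph.map_adj, SimpleGraph.map_adj] at hxy
  rcases hxy with ⟨u, v, huv, rfl, rfl⟩ | ⟨u, v, huv, rfl, rfl⟩
  · simp only
    rw [e1, e1]
    exact h₁ u v huv
  · simp only
    rw [e2, e2]
    exact hd u v huv

end H625

/-- all assembled graphs are finite -/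
theorem Assembled.finite {D : ℕ} {V : Type} {H : SimpleGraph V} (h : Assembled D V H) :
    Finite V := by
  induction h with
  | base V H hV _ _ => exact hV
  | sid V H hV _ => exact hV
  | glue V₁ V₂ V H₁ H₂ f₁ f₂ _ _ _ hc i1 i2 =>
    have := i1
    have := i2
    refine Finite.of_surjective (Sum.elim f₁ f₂) ?_
    intro x
    rcases hc x with ⟨u, hu⟩ | ⟨v, hv⟩
    · exact ⟨Sum.inl u, hu⟩
    · exact ⟨Sum.inr v, hv⟩
  | copies V₀ V H n f _ _ h3 i1 =>
    have := i1
    refine Finite.of_surjective (fun p : Fin (n + 1) × V₀ => f p.1 p.2) ?_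
    intro x
    obtain ⟨i, u, h⟩ := h3 x
    exact ⟨(i, u), h⟩

/-- all assembled graphs are bipartite -/
theorem Assembled.bip {D : ℕ} {V : Type} {H : SimpleGraph V} (h : Assembled D V H) :
    H.IsBipartite := by
  induction h with
  | base V H _ hb _ => exact hb
  | sid V H _ hs => exact hs.1
  | glue V₁ V₂ V H₁ H₂ f₁ f₂ _ _ h hc i1 i2 => exact bip_glue i1 i2 h
  | copies V₀ V H n f _ h1 _ i1 =>
    refine bip_copies i1 (name_unique ?_)
    intro i hi
    obtain ⟨j, hj, S, _, a, b⟩ := h1 i hi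
    exact ⟨j, hj, S, a, b⟩

/-- the induction, from the four cases -/
theorem ent_asm_of {D : ℕ} {V Ω : Type} [Fintype Ω] [DecidableEq Ω] {w : Ω → ℝ}
    {U : Sym2 Ω → ℝ}
    (hbase : ∀ (V : Type) [Fintype V] [DecidableEq V] (H : SimpleGraph V), H.IsBipartite →
      (∀ v, (H.neighborSet v).ncard ≤ D) → Ent H w U)
    (hsid : ∀ (V : Type) [Fintype V] [DecidableEq V] (H : SimpleGraph V), IsSidorenko H →
      Ent H w U)
    (hglue : ∀ (V₁ V₂ V : Type) [Fintype V₁] [DecidableEq V₁] [Fintype V₂] [DecidableEq V₂]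
      [Fintype V] [DecidableEq V] (H₁ : SimpleGraph V₁) (H₂ : SimpleGraph V₂) (f₁ : V₁ ↪ V)
      (f₂ : V₂ ↪ V), (∀ u v u' v', f₁ u = f₂ v → f₁ u' = f₂ v' → u = u') →
      (∀ x, (∃ u, f₁ u = x) ∨ ∃ v, f₂ v = x) → Ent H₁ w U → Ent H₂ w U →
        Ent (H₁.map f₁ ⊔ H₂.map f₂) w U)
    (htree : ∀ (V₀ V : Type) [Fintype V₀] [DecidableEq V₀] [Fintype V] [DecidableEq V]
      (H : SimpleGraph V₀) (n : ℕ) (f : Fin (n + 1) → V₀ ↪ V),
      (∀ i, i ≠ 0 → ∃ j < i, ∃ S : Set V₀, (H.induce S).IsAcyclic ∧ (∀ u ∈ S, f i u = f j u) ∧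
        ∀ u ∉ S, ∀ l < i, ∀ v, f l v ≠ f i u) →
      (∀ x, ∃ i u, f i u = x) → Ent H w U → Ent (⨆ i, H.map (f i)) w U)
    {H : SimpleGraph V} (h : Assembled D V H) :
    ∀ [Fintype V] [DecidableEq V], Ent H w U := by
  induction h with
  | base V H _ hb hD =>
    intro _ _
    exact hbase V H hb hD
  | sid V H _ hs =>
    intro _ _
    exact hsid V H hs
  | glue V₁ V₂ V H₁ H₂ f₁ f₂ g1 g2 h hc i1 i2 =>
    intro _ _
    haveI := g1.finite
    haveI := g2.finite
    letI : Fintype V₁ := Fintype.ofFinite V₁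
    letI : Fintype V₂ := Fintype.ofFinite V₂
    letI : DecidableEq V₁ := Classical.decEq V₁
    letI : DecidableEq V₂ := Classical.decEq V₂
    exact hglue V₁ V₂ V H₁ H₂ f₁ f₂ h hc i1 i2
  | copies V₀ V H n f g1 h1 h3 i1 =>
    intro _ _
    haveI := g1.finite
    letI : Fintype V₀ := Fintype.ofFinite V₀
    letI : DecidableEq V₀ := Classical.decEq V₀
    exact htree V₀ V H n f h1 h3 i1

end Vale.Agent.P050.Opt
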