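import Vale.Agent.P050.O.H625.Asm
import Vale.Agent.P050.O.H111.EntGlue
import Vale.Agent.P050.O.H111.EntBase
import Vale.Agent.P050.O.H128.TreeFin
import Vale.Agent.P050.O.H694.EntSidFin

set_option linter.all false

/-!
Dense targets, assembled graphs: every assembled graph satisfies `Ent`.
-/

open MeasureTheory Finset

namespace Vale.Agent.P050.Opt

open Vale.Agent.P050 Vale.Agent.P050.Dense

theorem ent_asm {D : ℕ} {V Ω : Type} [Fintype Ω] [DecidableEq Ω]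
    [MeasurableSpace Ω] [MeasurableSingletonClass Ω] {H : SimpleGraph V} (h : Assembled D V H)
    (μ : Measure Ω) [IsProbabilityMeasure μ] (hμ : ∀ s, 0 < μ.real {s}) {U : Sym2 Ω → ℝ}
    {κ η : ℝ} (hU : Ker μ U κ η) (hη : (1 + η) ^ D ≤ 2) (hκ : 10 ^ 12 * D * κ ≤ 1) :
    ∀ [Fintype V] [DecidableEq V], Ent H (fun s => μ.real {s}) U :=
  have hw := wt_of_ker μ hμ hU
  ent_asm_of
    (fun V _ _ H hb hD => H111.ent_base H hb hD μ hμ hU hη hκ)
    (fun V _ _ H hs => ent_sid hs hw)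
    (fun V₁ V₂ V _ _ _ _ _ _ H₁ H₂ f₁ f₂ h hc e1 e2 => ent_glue H₁ H₂ f₁ f₂ h hc hw e1 e2)
    (fun V₀ V _ _ _ _ H n f h1 h3 e => ent_tree H n f h1 h3 hw e) h

end Vale.Agent.P050.Opt
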