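import Vale.Agent.P050.O.H300.AsmDefs

set_option linter.all false

/-!
Dense targets, assembled graphs: monotonicity in the degree.
-/

open MeasureTheory Finset

namespace Vale.Agent.P050.Opt

open Vale.Agent.P050 Vale.Agent.P050.Dense

theorem Assembled.mono {D D' : ℕ} (hD : D ≤ D') {V : Type} {H : SimpleGraph V}
    (h : Assembled D V H) : Assembled D' V H := by
  induction h with
  | base V H hV hb hd => exact Assembled.base V H hV hb fun v => (hd v).trans hD
  | sid V H hV hs => exact Assembled.sid V H hV hs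
  | glue V₁ V₂ V H₁ H₂ f₁ f₂ _ _ h hc i1 i2 =>
    exact Assembled.glue V₁ V₂ V H₁ H₂ f₁ f₂ i1 i2 h hc
  | copies V₀ V H n f _ h1 h3 i1 => exact Assembled.copies V₀ V H n f i1 h1 h3

theorem Built.mono {D D' : ℕ} (hD : D ≤ D') {V : Type} {H : SimpleGraph V}
    (h : Built D V H) : Built D' V H := by
  induction h with
  | base V H hV hb hd => exact Built.base V H hV hb fun v => (hd v).trans hD
  | dom V H a hV hs => exact Built.dom V H a hV hs
  | glue V₁ V₂ V H₁ H₂ f₁ f₂ _ _ h hc i1 i2 =>
    exact Built.glue V₁ V₂ V H₁ H₂ f₁ f₂ i1 i2 h hc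
  | copies V₀ V ι H S f hι _ h0 h1 h2 h3 i1 => exact Built.copies V₀ V ι H S f hι i1 h0 h1 h2 h3

end Vale.Agent.P050.Opt
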