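import Vale.Agent.P050.O.H300.StarDefs

set_option linter.all false

/-!
Dense targets, glued graphs: the induction.
-/

open MeasureTheory Finset

namespace Vale.Agent.P050.Opt

open Vale.Agent.P050 Vale.Agent.P050.Dense

/-- the weighted inequality for glued bipartite graphs, from the three cases -/
theorem star_glued_of {V Ω : Type} [Fintype V] [DecidableEq V] [MeasurableSpace Ω]
    (μ : Measure Ω) {U : Sym2 Ω → ℝ} {D : ℕ}
    (hbase : ∀ H : SimpleGraph V, H.IsBipartite → (∀ v, (H.neighborSet v).ncard ≤ D) → Star H μ U)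
    (hdom : ∀ (H : SimpleGraph V) (a : V), (∀ u v, H.Adj u v → (H.Adj a u ↔ ¬ H.Adj a v)) →
      Star H μ U)
    (hglue : ∀ (H₁ H₂ : SimpleGraph V) (x : V),
      (∀ v, v ≠ x → H₁.neighborSet v = ∅ ∨ H₂.neighborSet v = ∅) → Star H₁ μ U → Star H₂ μ U →
        Star (H₁ ⊔ H₂) μ U)
    {H : SimpleGraph V} (hG : Glued D H) (hH : H.IsBipartite) : Star H μ U := by
  revert hH
  induction hG with
  | base H h => exact fun hH => hbase H hH h
  | dom H a h => exact fun _ => hdom H a h
  | glue H₁ H₂ x _ _ h i1 i2 =>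
    intro hH
    have h1 : H₁.IsBipartite := SimpleGraph.Colorable.mono_left le_sup_left hH
    have h2 : H₂.IsBipartite := SimpleGraph.Colorable.mono_left le_sup_right hH
    exact hglue H₁ H₂ x h (i1 h1) (i2 h2)

end Vale.Agent.P050.Opt
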