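import Vale.Agent.P050.O.H300.Defs
import Vale.Agent.P050.R2.H738.GL

set_option linter.all false

/-!
Dense targets, optimal order: positions on the path of a shape, the edge set of a shape, and the
clean pair bound for a shape (`pair`).
-/

open MeasureTheory Finset

namespace Vale.Agent.P050.Opt.H625

open Vale.Agent.P050 Vale.Agent.P050.Dense

section pos

variable {V : Type*} [Fintype V] [DecidableEq V]

/-- the vertex at position `i` of the path `(a, L)` -/
def P (a : V) : List V → ℕ → V
  | [], _ => a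
  | w :: L, i => if i ≤ L.length then P a L i else w

lemma P_cons_le {a w : V} {L : List V} {i : ℕ} (h : i ≤ L.length) :
    P a (w :: L) i = P a L i := by
  simp only [P, if_pos h]

lemma P_cons_last {a w : V} {L : List V} : P a (w :: L) (L.length + 1) = w := by
  simp only [P]
  rw [if_neg (by omega)]

lemma P_zero (a : V) (L : List V) : P a L 0 = a := by
  induction L with
  | nil => rfl
  | cons w L ih => rw [P_cons_le (Nat.zero_le _), ih]

lemma P_last (a : V) (L : List V) : P a L L.length = hd a L := by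
  cases L with
  | nil => rfl
  | cons w L => exact P_cons_last

lemma mem_vs {a : V} {L : List V} {v : V} : v ∈ vs a L ↔ ∃ i ≤ L.length, P a L i = v := by
  induction L with
  | nil =>
    simp only [vs, List.toFinset_nil, insert_empty_eq, mem_singleton, List.length_nil,
      nonpos_iff_eq_zero, exists_eq_left, P]
    exact eq_comm
  | cons w L ih =>
    have h1 : v ∈ vs a (w :: L) ↔ v = w ∨ v ∈ vs a L := by
      simp only [vs, List.toFinset_cons, mem_insert]
      tauto
    rw [h1, ih]
    constructor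
    · rintro (rfl | ⟨i, hi, rfl⟩)
      · exact ⟨L.length + 1, le_rfl, P_cons_last⟩
      · exact ⟨i, by simp only [List.length_cons]; omega, P_cons_le hi⟩
    · rintro ⟨i, hi, rfl⟩
      simp only [List.length_cons] at hi
      rcases Nat.lt_or_ge L.length i with h | h
      · left
        have : i = L.length + 1 := by omega
        rw [this]; exact P_cons_last
      · right
        exact ⟨i, h, (P_cons_le h).symm⟩

lemma P_mem {a : V} {L : List V} {i : ℕ} (h : i ≤ L.length) : P a L i ∈ vs a L :=
  mem_vs.mpr ⟨i, h, rfl⟩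

lemma mem_vs_iff {a : V} {L : List V} {v : V} : v ∈ vs a L ↔ v ∈ L ++ [a] := by
  simp only [vs, mem_insert, List.mem_toFinset, List.mem_append, List.mem_singleton]
  tauto

lemma P_inj {a : V} {L : List V} (nd : (L ++ [a]).Nodup) {i j : ℕ} (hi : i ≤ L.length)
    (hj : j ≤ L.length) (h : P a L i = P a L j) : i = j := by
  induction L generalizing i j with
  | nil =>
    simp only [List.length_nil, nonpos_iff_eq_zero] at hi hj
    rw [hi, hj]
  | cons w L ih =>
    rw [List.cons_append, List.nodup_cons] at nd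
    have hw : ∀ i ≤ L.length, P a L i ≠ w := by
      intro i hi e
      exact nd.1 (mem_vs_iff.mp (e ▸ P_mem hi))
    simp only [List.length_cons] at hi hj
    rcases Nat.lt_or_ge L.length i with h1 | h1
    · rcases Nat.lt_or_ge L.length j with h2 | h2
      · omega
      · exfalso
        have e1 : i = L.length + 1 := by omega
        rw [e1, P_cons_last, P_cons_le h2] at h
        exact hw j h2 h.symm
    · rcases Nat.lt_or_ge L.length j with h2 | h2
      · exfalso
        have e1 : j = L.length + 1 := by omega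
        rw [e1, P_cons_last, P_cons_le h1] at h
        exact hw i h1 h
      · rw [P_cons_le h1, P_cons_le h2] at h
        exact ih nd.2 h1 h2 h

lemma cons_iff {a : V} {L : List V} {x y : V} :
    Cons a L x y ↔ ∃ i < L.length, x = P a L (i + 1) ∧ y = P a L i := by
  induction L with
  | nil => simp [Cons]
  | cons w L ih =>
    simp only [Cons, ih]
    constructor
    · rintro (⟨rfl, rfl⟩ | ⟨i, hi, rfl, rfl⟩)
      · exact ⟨L.length, by simp, P_cons_last.symm, by rw [P_cons_le le_rfl, P_last]⟩
      · exact ⟨i, by simp only [List.length_cons]; omega, (P_cons_le (by omega)).symm,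
          (P_cons_le (by omega)).symm⟩
    · rintro ⟨i, hi, rfl, rfl⟩
      simp only [List.length_cons] at hi
      rcases Nat.lt_or_ge i L.length with h | h
      · right
        exact ⟨i, h, P_cons_le (by omega), P_cons_le (by omega)⟩
      · left
        have : i = L.length := by omega
        subst this
        exact ⟨P_cons_last, by rw [P_cons_le le_rfl, P_last]⟩

lemma mem_pv_tail {a : V} {L : List V} {v : V} :
    v ∈ pv a L.tail ↔ ∃ i, i + 2 ≤ L.length ∧ P a L i = v := by
  match L with
  | [] => simp [pv]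
  | [w] => simp [pv]
  | w :: w' :: L =>
    simp only [List.tail_cons, pv, mem_vs, List.length_cons]
    constructor
    · rintro ⟨i, hi, rfl⟩
      exact ⟨i, by omega, by rw [P_cons_le (by simp only [List.length_cons]; omega),
        P_cons_le hi]⟩
    · rintro ⟨i, hi, rfl⟩
      exact ⟨i, by omega, by rw [P_cons_le (by simp only [List.length_cons]; omega),
        P_cons_le (by omega)]⟩

lemma mem_list {a : V} {L : List V} {v : V} :
    v ∈ L ↔ ∃ i, 1 ≤ i ∧ i ≤ L.length ∧ P a L i = v := by
  induction L with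
  | nil => simp only [List.not_mem_nil, List.length_nil, false_iff, not_exists]; omega
  | cons w L ih =>
    rw [List.mem_cons, ih]
    constructor
    · rintro (rfl | ⟨i, h1, h2, rfl⟩)
      · exact ⟨L.length + 1, by omega, by simp, P_cons_last⟩
      · exact ⟨i, h1, by simp only [List.length_cons]; omega, P_cons_le h2⟩
    · rintro ⟨i, h1, h2, rfl⟩
      simp only [List.length_cons] at h2
      rcases Nat.lt_or_ge L.length i with h | h
      · left
        have : i = L.length + 1 := by omega
        rw [this]; exact P_cons_last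
      · right
        exact ⟨i, h1, h, (P_cons_le h).symm⟩

lemma mem_dropLast {a : V} {L : List V} {v : V} :
    v ∈ L.dropLast ↔ ∃ i, 2 ≤ i ∧ i ≤ L.length ∧ P a L i = v := by
  induction L with
  | nil => simp only [List.dropLast_nil, List.not_mem_nil, List.length_nil, false_iff, not_exists]; omega
  | cons w L ih =>
    match L with
    | [] =>
      simp only [List.dropLast_singleton, List.not_mem_nil, List.length_cons, List.length_nil,
        false_iff, not_exists]
      omega
    | w' :: L =>
      rw [List.dropLast_cons_cons, List.mem_cons, ih]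
      constructor
      · rintro (rfl | ⟨i, h1, h2, rfl⟩)
        · exact ⟨L.length + 2, by omega, by simp, P_cons_last⟩
        · exact ⟨i, h1, by simp only [List.length_cons] at h2 ⊢; omega, P_cons_le h2⟩
      · rintro ⟨i, h1, h2, rfl⟩
        simp only [List.length_cons] at h2
        rcases Nat.lt_or_ge (w' :: L).length i with h | h
        · left
          simp only [List.length_cons] at h
          have : i = (w' :: L).length + 1 := by simp only [List.length_cons]; omega
          rw [this]; exact P_cons_last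
        · right
          exact ⟨i, h1, h, (P_cons_le h).symm⟩

lemma mem_tail_dropLast {a : V} {L : List V} {v : V} :
    v ∈ L.tail.dropLast ↔ ∃ i, 2 ≤ i ∧ i + 1 ≤ L.length ∧ P a L i = v := by
  cases L with
  | nil => simp
  | cons w L =>
    rw [List.tail_cons, mem_dropLast (a := a)]
    constructor
    · rintro ⟨i, h1, h2, rfl⟩
      exact ⟨i, h1, by simp only [List.length_cons]; omega, P_cons_le h2⟩
    · rintro ⟨i, h1, h2, rfl⟩
      simp only [List.length_cons] at h2
      exact ⟨i, h1, by omega, (P_cons_le (by omega)).symm⟩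

lemma card_vs {a : V} {L : List V} (nd : (L ++ [a]).Nodup) : (vs a L).card = L.length + 1 := by
  have : vs a L = (L ++ [a]).toFinset := by
    ext v; rw [mem_vs_iff, List.mem_toFinset]
  rw [this, List.toFinset_card_of_nodup nd]
  simp

/-! ### the edges of a shape -/

/-- the edges of the path -/
def pE (a : V) : List V → Finset (Sym2 V)
  | [] => ∅
  | w :: L => insert s(hd a L, w) (pE a L)

/-- the chord at the first vertex -/
def bE (a : V) : Option (Option V) → Finset (Sym2 V)
  | some (some c) => {s(a, c)}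
  | _ => ∅

/-- the edges of a shape -/
def ED (a : V) (L : List V) (B : Option (Option V)) (S : Finset V) : Finset (Sym2 V) :=
  pE a L ∪ bE a B ∪ S.image fun x => s(x, hd a L)

lemma mem_pE {a : V} {L : List V} {e : Sym2 V} :
    e ∈ pE a L ↔ ∃ i < L.length, e = s(P a L i, P a L (i + 1)) := by
  induction L with
  | nil => simp [pE]
  | cons w L ih =>
    rw [pE, mem_insert, ih]
    constructor
    · rintro (rfl | ⟨i, hi, rfl⟩)
      · exact ⟨L.length, by simp, by rw [P_cons_last, P_cons_le le_rfl, P_last]⟩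
      · exact ⟨i, by simp only [List.length_cons]; omega, by
          rw [P_cons_le (by omega), P_cons_le (by omega)]⟩
    · rintro ⟨i, hi, rfl⟩
      simp only [List.length_cons] at hi
      rcases Nat.lt_or_ge i L.length with h | h
      · right
        exact ⟨i, h, by rw [P_cons_le (by omega), P_cons_le (by omega)]⟩
      · left
        have : i = L.length := by omega
        subst this
        rw [P_cons_last, P_cons_le le_rfl, P_last]

lemma mem_bE {a : V} {B : Option (Option V)} {e : Sym2 V} :
    e ∈ bE a B ↔ ∃ c, B = some (some c) ∧ e = s(a, c) := by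
  match B with
  | none => simp [bE]
  | some none => simp [bE]
  | some (some c) => simp [bE]

lemma mem_ED {a : V} {L : List V} {B : Option (Option V)} {S : Finset V} {e : Sym2 V} :
    e ∈ ED a L B S ↔ (∃ i < L.length, e = s(P a L i, P a L (i + 1))) ∨
      (∃ c, B = some (some c) ∧ e = s(a, c)) ∨ ∃ x ∈ S, e = s(x, hd a L) := by
  rw [ED, mem_union, mem_union, mem_pE, mem_bE, mem_image, or_assoc]
  refine or_congr Iff.rfl (or_congr Iff.rfl ?_)
  constructor <;> rintro ⟨x, hx, rfl⟩ <;> exact ⟨x, hx, rfl⟩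

variable {H : SimpleGraph V} {a : V} {L : List V} {B : Option (Option V)} {S : Finset V} {b : Bool}

/-- the chords `S` have positions at most `M - 2` -/
lemma S_pos (hs : Shape H a L B S b) {x : V} (hx : x ∈ S) :
    ∃ i, i + 2 ≤ L.length ∧ P a L i = x := mem_pv_tail.mp (hs.sS hx)

/-- the chord at the first vertex has position in `[2, M - 1]` -/
lemma B_pos (hs : Shape H a L B S b) {c : V} (hB : B = some (some c)) :
    ∃ i, 2 ≤ i ∧ i + 1 ≤ L.length ∧ P a L i = c := mem_tail_dropLast.mp (hs.aB c hB).1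

lemma edge_pos (hs : Shape H a L B S b) {e : Sym2 V} (he : e ∈ ED a L B S) :
    ∃ i j, i < j ∧ j ≤ L.length ∧ e = s(P a L i, P a L j) := by
  rcases mem_ED.mp he with ⟨i, hi, rfl⟩ | ⟨c, hB, rfl⟩ | ⟨x, hx, rfl⟩
  · exact ⟨i, i + 1, by omega, by omega, rfl⟩
  · obtain ⟨i, h1, h2, rfl⟩ := B_pos hs hB
    exact ⟨0, i, by omega, by omega, by rw [P_zero]⟩
  · obtain ⟨i, h1, rfl⟩ := S_pos hs hx
    exact ⟨i, L.length, by omega, le_rfl, by rw [P_last]⟩

/-- the graph of the shape has the edge set `ED` -/
lemma adj_iff (hs : Shape H a L B S b) {x y : V} :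
    (FG a L B S).Adj x y ↔ s(x, y) ∈ ED a L B S := by
  have hne : s(x, y) ∈ ED a L B S → x ≠ y := by
    intro h e
    subst e
    obtain ⟨i, j, h1, h2, h3⟩ := edge_pos hs h
    have h4 : P a L i = P a L j := by
      rw [eq_comm, Sym2.eq_iff] at h3
      rcases h3 with ⟨h, h'⟩ | ⟨h, h'⟩ <;> rw [h, h']
    have := P_inj hs.nd (by omega) h2 h4
    omega
  rw [FG, SimpleGraph.fromRel_adj]
  constructor
  · rintro ⟨hxy, h | h⟩
    · rcases h with h | ⟨h1, h2⟩ | ⟨h1, h2⟩
      · obtain ⟨i, hi, rfl, rfl⟩ := cons_iff.mp h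
        exact mem_ED.mpr (Or.inl ⟨i, hi, Sym2.eq_swap⟩)
      · exact mem_ED.mpr (Or.inr (Or.inl ⟨y, h2, by rw [h1]⟩))
      · exact mem_ED.mpr (Or.inr (Or.inr ⟨x, h1, by rw [h2]⟩))
    · rcases h with h | ⟨h1, h2⟩ | ⟨h1, h2⟩
      · obtain ⟨i, hi, rfl, rfl⟩ := cons_iff.mp h
        exact mem_ED.mpr (Or.inl ⟨i, hi, rfl⟩)
      · exact mem_ED.mpr (Or.inr (Or.inl ⟨x, h2, by rw [h1, Sym2.eq_swap]⟩))
      · exact mem_ED.mpr (Or.inr (Or.inr ⟨y, h1, by rw [h2, Sym2.eq_swap]⟩))
  · intro h
    refine ⟨hne h, ?_⟩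
    rcases mem_ED.mp h with ⟨i, hi, h⟩ | ⟨c, hB, h⟩ | ⟨u, hu, h⟩
    · rw [Sym2.eq_iff] at h
      rcases h with ⟨rfl, rfl⟩ | ⟨rfl, rfl⟩
      · exact Or.inr (Or.inl (cons_iff.mpr ⟨i, hi, rfl, rfl⟩))
      · exact Or.inl (Or.inl (cons_iff.mpr ⟨i, hi, rfl, rfl⟩))
    · rw [Sym2.eq_iff] at h
      rcases h with ⟨rfl, rfl⟩ | ⟨rfl, rfl⟩
      · exact Or.inl (Or.inr (Or.inl ⟨rfl, hB⟩))
      · exact Or.inr (Or.inr (Or.inl ⟨rfl, hB⟩))
    · rw [Sym2.eq_iff] at h
      rcases h with ⟨rfl, rfl⟩ | ⟨rfl, rfl⟩
      · exact Or.inl (Or.inr (Or.inr ⟨hu, rfl⟩))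
      · exact Or.inr (Or.inr (Or.inr ⟨hu, rfl⟩))

/-- the edges of the path from `x` over `p` to `y` -/
def arc (x : V) : List V → V → Finset (Sym2 V)
  | [], y => {s(x, y)}
  | v :: p, y => insert s(x, v) (arc v p y)

lemma arc_mem {x y : V} {p : List V} {e : Sym2 V} (he : e ∈ arc x p y) {v : V} (hv : v ∈ e) :
    v = x ∨ v = y ∨ v ∈ p := by
  induction p generalizing x with
  | nil =>
    rw [arc, mem_singleton] at he
    subst he
    rcases Sym2.mem_iff.mp hv with h | h <;> tauto
  | cons w p ih =>
    rw [arc, mem_insert] at he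
    rcases he with rfl | he
    · rcases Sym2.mem_iff.mp hv with h | h
      · exact Or.inl h
      · exact Or.inr (Or.inr (by rw [h]; exact List.mem_cons_self))
    · rcases ih he with h | h | h
      · exact Or.inr (Or.inr (by rw [h]; exact List.mem_cons_self))
      · exact Or.inr (Or.inl h)
      · exact Or.inr (Or.inr (List.mem_cons_of_mem _ h))

/-- every edge of an arc with at least two edges touches the interior or the arc is one edge -/
lemma arc_touch {x y : V} {p : List V} {e : Sym2 V} (he : e ∈ arc x p y) (hp : p ≠ []) :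
    ∃ v ∈ p, v ∈ e := by
  induction p generalizing x with
  | nil => exact absurd rfl hp
  | cons w p ih =>
    rw [arc, mem_insert] at he
    rcases he with rfl | he
    · exact ⟨w, List.mem_cons_self, Sym2.mem_mk_right _ _⟩
    · cases p with
      | nil =>
        rw [arc, mem_singleton] at he
        subst he
        exact ⟨w, List.mem_cons_self, Sym2.mem_mk_left _ _⟩
      | cons w' p =>
        obtain ⟨v, hv, hve⟩ := ih he (by simp)
        exact ⟨v, List.mem_cons_of_mem _ hv, hve⟩

end pos

section ker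

variable {V : Type*} [Fintype V] [DecidableEq V] {Ω : Type*} [MeasurableSpace Ω]
variable {U : Sym2 Ω → ℝ} {κ η : ℝ}

lemma pU_eq {a : V} {L : List V} (nd : (L ++ [a]).Nodup) (z : V → Ω) :
    pU U a L z = wt U (pE a L) z := by
  induction L with
  | nil => simp [pU, pE, wt]
  | cons w L ih =>
    rw [List.cons_append, List.nodup_cons] at nd
    have hn : s(hd a L, w) ∉ pE a L := by
      intro h
      obtain ⟨i, hi, he⟩ := mem_pE.mp h
      have : w ∈ s(P a L i, P a L (i + 1)) := he ▸ Sym2.mem_mk_right _ _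
      rcases Sym2.mem_iff.mp this with h | h
      · exact nd.1 (mem_vs_iff.mp (h ▸ P_mem (by omega)))
      · exact nd.1 (mem_vs_iff.mp (h ▸ P_mem (by omega)))
    rw [pU, ih nd.2, pE, wt, wt, prod_insert hn]
    rfl

lemma bc_eq {a : V} {B : Option (Option V)} (z : V → Ω) : bc U a B z = wt U (bE a B) z := by
  match B with
  | none => simp [bc, bE, wt]
  | some none => simp [bc, bE, wt]
  | some (some c) => simp [bc, bE, wt]

variable {H : SimpleGraph V} {a : V} {L : List V} {B : Option (Option V)} {S : Finset V} {b : Bool}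

/-- the integrand of a shape is the weight of its edge set -/
theorem wt_ED (hs : Shape H a L B S b) (z : V → Ω) :
    pU U a L z * bc U a B z * (∏ x ∈ S, U s(z x, z (hd a L))) = wt U (ED a L B S) z := by
  have h1 : Disjoint (pE a L) (bE a B) := by
    rw [disjoint_left]
    intro e h1 h2
    obtain ⟨i, hi, rfl⟩ := mem_pE.mp h1
    obtain ⟨c, hB, he⟩ := mem_bE.mp h2
    obtain ⟨j, hj1, hj2, rfl⟩ := B_pos hs hB
    rw [Sym2.eq_iff] at he
    rcases he with ⟨e1, e2⟩ | ⟨e1, e2⟩
    · have h3 := P_inj hs.nd (i := i) (j := 0) (by omega) (by omega) (e1.trans (P_zero a L).symm)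
      have h4 := P_inj hs.nd (by omega) (by omega) e2
      omega
    · have h4 := P_inj hs.nd (i := i + 1) (j := 0) (by omega) (by omega)
        (e2.trans (P_zero a L).symm)
      omega
  have h2 : Disjoint (pE a L ∪ bE a B) (S.image fun x => s(x, hd a L)) := by
    rw [disjoint_left]
    intro e h1 h2
    obtain ⟨x, hx, rfl⟩ := mem_image.mp h2
    obtain ⟨m, hm, rfl⟩ := S_pos hs hx
    rcases mem_union.mp h1 with h1 | h1
    · obtain ⟨i, hi, he⟩ := mem_pE.mp h1
      rw [← P_last a L, Sym2.eq_iff] at he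
      rcases he with ⟨e1, e2⟩ | ⟨e1, e2⟩
      · have := P_inj hs.nd (by omega) (by omega) e1
        have := P_inj hs.nd (by omega) (by omega) e2
        omega
      · have := P_inj hs.nd (by omega) (by omega) e1
        have := P_inj hs.nd (by omega) (by omega) e2
        omega
    · obtain ⟨c, hB, he⟩ := mem_bE.mp h1
      obtain ⟨j, hj1, hj2, rfl⟩ := B_pos hs hB
      rw [Sym2.eq_iff] at he
      rcases he with ⟨e1, e2⟩ | ⟨e1, e2⟩
      · have h4 := P_inj hs.nd (i := L.length) (j := j) le_rfl (by omega)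
          ((P_last a L).trans e2)
        omega
      · have h4 := P_inj hs.nd (i := L.length) (j := 0) le_rfl (by omega)
          (((P_last a L).trans e2).trans (P_zero a L).symm)
        omega
  have h3 : ∏ x ∈ S, U s(z x, z (hd a L)) = wt U (S.image fun x => s(x, hd a L)) z := by
    rw [wt, prod_image]
    · rfl
    · intro x hx y hy hxy
      rw [Sym2.eq_iff] at hxy
      rcases hxy with ⟨h, _⟩ | ⟨h, h'⟩
      · exact h
      · rw [h, ← h']
  rw [h3, pU_eq hs.nd, bc_eq, ED, wt, wt, wt, wt, prod_union h2, prod_union h1]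

/-- path products without decorations of the ends -/
lemma pathProd_eq {h : V → Ω → ℝ} (x : V) (p : List V) (y : V) (nd : (x :: p ++ [y]).Nodup)
    (z : V → Ω) :
    pathProd U (fun v _ t => h v t) x p y z =
      wt U (arc x p y) z * ∏ v ∈ p.toFinset, h v (z v) := by
  induction p generalizing x with
  | nil => simp [pathProd, arc, wt]
  | cons w p ih =>
    have nd2 : (w :: p ++ [y]).Nodup := by
      rw [List.cons_append, List.cons_append, List.nodup_cons] at nd
      exact nd.2
    have hx : x ∉ (w :: p ++ [y]) := by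
      rw [List.cons_append, List.nodup_cons] at nd
      exact nd.1
    have hn : s(x, w) ∉ arc w p y := by
      intro h
      rcases arc_mem h (Sym2.mem_mk_left x w) with h | h | h
      · exact hx (by rw [h]; simp)
      · exact hx (by rw [h]; simp)
      · exact hx (by simp [h])
    have hw : w ∉ p.toFinset := by
      rw [List.mem_toFinset]
      intro h
      rw [List.cons_append, List.nodup_cons] at nd2
      exact nd2.1 (by simp [h])
    rw [pathProd, ih w nd2, arc, List.toFinset_cons, prod_insert hw, wt, wt, prod_insert hn]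
    simp only [Sym2.map_mk]
    ring

variable (μ : Measure Ω) [IsProbabilityMeasure μ]

/-- the clean pair bound for a shape: two arcs with `k` edges each -/
theorem pair (hU : Ker μ U κ η) (hs : Shape H a L B S b) {k : ℕ} {x1 y1 x2 y2 : V}
    {p q : List V} (hp : p.length + 1 = k) (hq : q.length + 1 = k) (nd : (p ++ q).Nodup)
    (h1 : x1 ≠ y1) (h2 : x2 ≠ y2)
    (hv : ∀ v ∈ p ++ q, v ∈ vs a L)
    (hx1 : x1 ∈ vs a L) (hy1 : y1 ∈ vs a L) (hx2 : x2 ∈ vs a L) (hy2 : y2 ∈ vs a L)
    (hx1' : x1 ∉ p ++ q) (hy1' : y1 ∉ p ++ q) (hx2' : x2 ∉ p ++ q) (hy2' : y2 ∉ p ++ q)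
    (he1 : arc x1 p y1 ⊆ ED a L B S) (he2 : arc x2 q y2 ⊆ ED a L B S)
    (hdis : Disjoint (arc x1 p y1) (arc x2 q y2))
    (hcl : ∀ e ∈ ED a L B S, e ∉ arc x1 p y1 → e ∉ arc x2 q y2 → ∀ v ∈ e, v ∉ p ++ q)
    (hr1 : ∀ x ∈ vs a L, x ∉ p ++ q → ∃ r ∈ ({x1, y1} : Finset V),
      (gr (ED a L B S \ (arc x1 p y1 ∪ arc x2 q y2))).Reachable r x)
    (hr2 : ∀ x ∈ vs a L, x ∉ p ++ q → ∃ r ∈ ({x2, y2} : Finset V),
      (gr (ED a L B S \ (arc x1 p y1 ∪ arc x2 q y2))).Reachable r x)
    {h : V → Ω → ℝ} (hh : ∀ v, BM (h v)) (hh1 : ∀ v s, |h v s| ≤ 1) :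
    |∫ z, pU U a L z * bc U a B z * (∏ x ∈ S, U s(z x, z (hd a L))) *
      ∏ x ∈ vs a L, h x (z x) ∂(piM V μ)| ≤ κ ^ (L.length + 1 - 2 * k) * ck μ U k := by
  set E := ED a L B S with hE
  set X := vs a L \ (p ++ q).toFinset with hX
  set F := E \ (arc x1 p y1 ∪ arc x2 q y2) with hF
  have hmX : ∀ v, v ∈ X ↔ v ∈ vs a L ∧ v ∉ p ++ q := by
    intro v; rw [hX, mem_sdiff, List.mem_toFinset]
  have ndp : (x1 :: p ++ [y1]).Nodup := by
    rw [List.nodup_append] at nd
    simp only [List.cons_append, List.nodup_cons, List.nodup_append, List.mem_append,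
      List.mem_singleton, List.nodup_singleton, not_or]
    refine ⟨⟨fun h => hx1' (List.mem_append_left _ h), h1⟩, nd.1, ⟨List.not_mem_nil,
      List.nodup_nil⟩, ?_⟩
    rintro u hu v rfl huv
    exact hy1' (List.mem_append_left _ (huv ▸ hu))
  have ndq : (x2 :: q ++ [y2]).Nodup := by
    rw [List.nodup_append] at nd
    simp only [List.cons_append, List.nodup_cons, List.nodup_append, List.mem_append,
      List.mem_singleton, List.nodup_singleton, not_or]
    refine ⟨⟨fun h => hx2' (List.mem_append_right _ h), h2⟩, nd.2.1, ⟨List.not_mem_nil,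
      List.nodup_nil⟩, ?_⟩
    rintro u hu v rfl huv
    exact hy2' (List.mem_append_right _ (huv ▸ hu))
  have hint : ∀ z : V → Ω, pU U a L z * bc U a B z * (∏ x ∈ S, U s(z x, z (hd a L))) *
      ∏ x ∈ vs a L, h x (z x) = pathProd U (fun v _ y => h v y) x1 p y1 z *
        (pathProd U (fun v _ y => h v y) x2 q y2 z * (wt U F z * ∏ x ∈ X, h x (z x))) := by
    intro z
    have e1 : wt U E z = wt U F z * (wt U (arc x1 p y1) z * wt U (arc x2 q y2) z) := by
      rw [wt, wt, wt, wt, ← prod_union hdis, hF, prod_sdiff (union_subset he1 he2)]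
    have hsub : (p ++ q).toFinset ⊆ vs a L := fun v hm => hv v (List.mem_toFinset.mp hm)
    have hpq : Disjoint p.toFinset q.toFinset := by
      rw [disjoint_left]
      intro v h1 h2
      rw [List.nodup_append] at nd
      exact nd.2.2 v (List.mem_toFinset.mp h1) v (List.mem_toFinset.mp h2) rfl
    have e2 : ∏ x ∈ vs a L, h x (z x) = (∏ x ∈ X, h x (z x)) *
        ((∏ x ∈ p.toFinset, h x (z x)) * ∏ x ∈ q.toFinset, h x (z x)) := by
      rw [← prod_union hpq, ← List.toFinset_append, hX, prod_sdiff hsub]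
    rw [wt_ED hs, e1, e2, pathProd_eq x1 p y1 ndp, pathProd_eq x2 q y2 ndq]
    ring
  simp only [hint]
  have key := R2.H738.gl μ hU.good hU.κ0 hU.l1 (k := k) (a := x1) (m := y1) (m' := x2) (b := y2)
    hp hq nd h1 h2 (X := X) ((hmX _).mpr ⟨hx1, hx1'⟩) ((hmX _).mpr ⟨hy1, hy1'⟩)
    ((hmX _).mpr ⟨hx2, hx2'⟩) ((hmX _).mpr ⟨hy2, hy2'⟩)
    (fun v hm hm' => ((hmX _).mp hm').2 (List.mem_append_left _ hm))
    (fun v hm hm' => ((hmX _).mp hm').2 (List.mem_append_right _ hm)) (F := F)
    (by
      intro e he v hve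
      rw [hF, mem_sdiff, mem_union, not_or] at he
      refine (hmX _).mpr ⟨?_, hcl e he.1 he.2.1 he.2.2 v hve⟩
      obtain ⟨i, j, hi, hj, rfl⟩ := edge_pos hs he.1
      rcases Sym2.mem_iff.mp hve with rfl | rfl
      · exact P_mem (by omega)
      · exact P_mem hj)
    (fun x hx => hr1 x ((hmX _).mp hx).1 ((hmX _).mp hx).2)
    (fun x hx => hr2 x ((hmX _).mp hx).1 ((hmX _).mp hx).2) hh hh1
  have hc : X.card - 2 = L.length + 1 - 2 * k := by
    have hsub : (p ++ q).toFinset ⊆ vs a L := fun v hm => hv v (List.mem_toFinset.mp hm)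
    rw [hX, card_sdiff_of_subset hsub, card_vs hs.nd, List.toFinset_card_of_nodup nd,
      List.length_append]
    omega
  rw [hc] at key
  exact key

end ker

end Vale.Agent.P050.Opt.H625
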